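import Vale.Agent.P214.SUB.C

set_option linter.all false

/-! Block END (helper342): density of the projected set `{Θ ≥ Q}` gives a fine net, and the
iterated decay on channels. -/

open Set Filter Topology MeasureTheory Metric
open scoped RealInnerProductSpace ENNReal NNReal

namespace Vale.Agent.P214

variable {E : Type*} [NormedAddCommGroup E] [InnerProductSpace ℝ E] [FiniteDimensional ℝ E]
  [MeasurableSpace E] [BorelSpace E]
variable {m : ℕ} {U : Set E} {V : IntegralVarifold m U}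

namespace END

/-- translated discs -/
lemma measure_disc_at {T : Submodule ℝ E} (hT : Module.finrank ℝ T = m) {x : E} (hx : x ∈ T)
    {δ : ℝ} (hδ : 0 ≤ δ) :
    μH[m] {t : E | t ∈ T ∧ ‖t - x‖ ≤ δ} = ENNReal.ofReal (DEN.om m * δ ^ m) := by
  have h1 : {t : E | t ∈ T ∧ ‖t - x‖ ≤ δ} = (fun y => y + x) '' DEN.disc T δ := by
    ext t
    constructor
    · rintro ⟨h1, h2⟩
      exact ⟨t - x, ⟨T.sub_mem h1 hx, h2⟩, by simp⟩
    · rintro ⟨y, ⟨h1, h2⟩, rfl⟩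
      exact ⟨T.add_mem h1 hx, by simpa using h2⟩
  rw [h1, (isometry_add_right x).hausdorffMeasure_image (Or.inl (Nat.cast_nonneg m)),
    DEN.measure_disc hT hδ]

/-- a set of nearly full measure in a disc is a fine net -/
lemma exists_near {T : Submodule ℝ E} (hT : Module.finrank ℝ T = m) {A : Set E} {ε r δ : ℝ}
    (hA : μH[m] (DEN.disc T r \ A) ≤ ENNReal.ofReal (ε * r ^ m)) (hδ : 0 < δ)
    (hεδ : ε * r ^ m < DEN.om m * δ ^ m) {x : E} (hx : x ∈ T) (hxr : ‖x‖ + δ ≤ r) :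
    ∃ a ∈ A, a ∈ T ∧ ‖a - x‖ ≤ δ := by
  by_contra hcon
  push Not at hcon
  have hsub : {t : E | t ∈ T ∧ ‖t - x‖ ≤ δ} ⊆ DEN.disc T r \ A := by
    rintro t ⟨h1, h2⟩
    refine ⟨⟨h1, ?_⟩, fun htA => absurd h2 (not_le.2 (hcon t htA h1))⟩
    calc ‖t‖ = ‖(t - x) + x‖ := by rw [sub_add_cancel]
      _ ≤ ‖t - x‖ + ‖x‖ := norm_add_le _ _
      _ ≤ r := by linarith
  have h1 := (measure_mono hsub).trans hA
  rw [measure_disc_at hT hx hδ.le] at h1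
  have hom := DEN.om_pos m
  have h3 : 0 < DEN.om m * δ ^ m := by positivity
  rw [ENNReal.ofReal_le_ofReal_iff'] at h1
  rcases h1 with h1 | h1
  · exact absurd h1 (not_le.2 hεδ)
  · exact absurd h3 (not_lt.2 h1)

/-- **K is dense at small relative scale**: at a good point, for every relative precision `κ`, at
all small radii every base point of the disc of radius `(1-κ) r` is `κ r`-close to the projection
of a point of `KK` in `closedBall 0 r`. -/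
lemma dense_KK {x : E} (hx : Skel.GoodPt V x) {κ : ℝ} (hκ : 0 < κ) :
    ∀ᶠ r in 𝓝[>] (0:ℝ), ∀ b ∈ V.tangent x, ‖b‖ + κ * r ≤ r →
      ∃ z ∈ SUB.KK V x ∩ closedBall 0 r, ‖(V.tangent x).starProjection z - b‖ ≤ κ * r := by
  have hom := DEN.om_pos m
  have hfin : Module.finrank ℝ (V.tangent x) = m := hx.tan.1
  filter_upwards [SUB.dens_KK hx (show 0 < DEN.om m * κ ^ m / 2 by positivity),
    self_mem_nhdsWithin] with r hr hr0 b hb hbr
  have hr0' : (0:ℝ) < r := hr0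
  obtain ⟨a, ⟨z, hz, rfl⟩, -, ha⟩ := exists_near hfin hr (show 0 < κ * r by positivity) (by
    rw [mul_pow]
    have : 0 < DEN.om m * κ ^ m * r ^ m := by positivity
    nlinarith) hb hbr
  exact ⟨z, hz, ha⟩

/-- **Iterated decay.** `f` = distance to the reference on the set `Sp`; at every point `z` of `K`
there is a shifted function `g` (distance to the translated reference) which halves from the
cylinder of radius `A δ` to the one of radius `δ`. -/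
theorem decay {T : Submodule ℝ E} {p : E → E} (hpT : ∀ y, p y ∈ T) {Sp K : Set E} {f : E → ℝ}
    {r δ A τ M₀ : ℝ} (hδ : 0 < δ) (hA : 1 ≤ A) (hτ : 0 ≤ τ)
    (hK : ∀ b ∈ T, ‖b‖ + δ ≤ r → ∃ z ∈ K, ‖p z - b‖ ≤ δ)
    (hstep : ∀ z ∈ K, ‖p z‖ + A * δ ≤ r → ∃ g : E → ℝ, (∀ y ∈ Sp, |g y - f y| ≤ 2 * τ) ∧
      ∀ M, (∀ y ∈ Sp, ‖p y - p z‖ ≤ A * δ → g y ≤ M) →
        ∀ y ∈ Sp, ‖p y - p z‖ ≤ δ → g y ≤ M / 2)
    (h0 : ∀ y ∈ Sp, ‖p y‖ ≤ r → f y ≤ M₀) (hM₀ : 0 ≤ M₀) (k : ℕ) :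
    ∀ y ∈ Sp, ‖p y‖ ≤ r - k * ((A + 1) * δ) → f y ≤ M₀ / 2 ^ k + 6 * τ := by
  induction k with
  | zero =>
    intro y hy hyr
    simp only [Nat.cast_zero, zero_mul, sub_zero] at hyr
    have := h0 y hy hyr
    simp only [pow_zero, div_one]
    linarith
  | succ k ih =>
    intro y hy hyr
    push_cast at hyr
    have hAδ : 0 < (A + 1) * δ := by positivity
    have hk : 0 ≤ (k:ℝ) * ((A + 1) * δ) := by positivity
    obtain ⟨z, hz, hzy⟩ := hK (p y) (hpT y) (by nlinarith)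
    have hpz : ‖p z‖ ≤ ‖p y‖ + δ := by
      calc ‖p z‖ = ‖(p z - p y) + p y‖ := by rw [sub_add_cancel]
        _ ≤ ‖p z - p y‖ + ‖p y‖ := norm_add_le _ _
        _ ≤ ‖p y‖ + δ := by linarith
    obtain ⟨g, hgf, hg⟩ := hstep z hz (by nlinarith)
    have h1 : ∀ y' ∈ Sp, ‖p y' - p z‖ ≤ A * δ → g y' ≤ (M₀ / 2 ^ k + 6 * τ) + 2 * τ := by
      intro y' hy' hd
      have h2 : ‖p y'‖ ≤ r - k * ((A + 1) * δ) := by
        calc ‖p y'‖ = ‖(p y' - p z) + p z‖ := by rw [sub_add_cancel]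
          _ ≤ ‖p y' - p z‖ + ‖p z‖ := norm_add_le _ _
          _ ≤ r - k * ((A + 1) * δ) := by nlinarith
      have h3 := ih y' hy' h2
      have h4 := (abs_le.1 (hgf y' hy')).2
      linarith
    have h5 := hg _ h1 y hy (by rw [norm_sub_rev]; exact hzy)
    have h6 := (abs_le.1 (hgf y hy)).1
    have h7 : M₀ / 2 ^ (k + 1) = M₀ / 2 ^ k / 2 := by rw [pow_succ]; field_simp
    rw [h7]
    linarith

/-- **The contradiction**: bounded growth of the `L²` height against the iterated decay.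
`H` = normalised or unnormalised `L²` height at the radii `r/2` and `2r`. -/
theorem no_decay {S₁ S₂ H₁ H₂ c C M τ : ℝ} {k : ℕ} (hc : 0 < c) (hC : 0 < C) (hM : 0 < M)
    (hH₁ : 0 < H₁) (hS₁ : c * H₁ ≤ S₁ ^ 2) (hS₁0 : 0 ≤ S₁) (hS₂ : S₂ ^ 2 ≤ C * H₂)
    (hdec : S₁ ≤ S₂ / 2 ^ k + 6 * τ) (hS₂0 : 0 ≤ S₂) (hτ0 : 0 ≤ τ)
    (hgrow : H₂ ≤ M * H₁) (hτ : 288 * τ ^ 2 ≤ c * H₁ )
    (hk : 8 * (C * M) < c * 4 ^ k) : False := by
  have h1 : S₁ ^ 2 ≤ 2 * (S₂ / 2 ^ k) ^ 2 + 72 * τ ^ 2 := by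
    have h2 : 0 ≤ S₂ / 2 ^ k := by positivity
    nlinarith [sq_nonneg (S₂ / 2 ^ k - 6 * τ)]
  have h3 : (S₂ / 2 ^ k) ^ 2 = S₂ ^ 2 / 4 ^ k := by
    rw [div_pow, ← pow_mul, mul_comm k 2, pow_mul]; norm_num
  have h4 : S₂ ^ 2 / 4 ^ k ≤ C * (M * H₁) / 4 ^ k := by
    gcongr
    exact hS₂.trans (by gcongr)
  have h5 : C * (M * H₁) / 4 ^ k < c * H₁ / 8 := by
    rw [div_lt_div_iff₀ (by positivity) (by norm_num)]
    nlinarith
  rw [h3] at h1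
  nlinarith

/-- **The ending.** If `K` is `κ r`-dense (base directions), heights over the points of `K` decay,
and the `L²` heights at the scales `r/2` and `2r` are comparable, then `κ` cannot be small. All
quantities are abstract: `H₁`, `H₂` are `L²` heights at the smaller and the larger scale. -/
theorem ending {T : Submodule ℝ E} {p : E → E} (hpT : ∀ y, p y ∈ T) {Sp K : Set E} {f : E → ℝ}
    {r κ A τ c C M H₁ H₂ : ℝ} {k : ℕ} (hr : 0 < r) (hκ : 0 < κ) (hA : 1 ≤ A) (hτ : 0 ≤ τ)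
    (hc : 0 < c) (hC : 0 < C) (hM : 0 < M) (hH₁ : 0 < H₁) (hH₂ : 0 ≤ H₂)
    (hK : ∀ b ∈ T, ‖b‖ + κ * r ≤ r → ∃ z ∈ K, ‖p z - b‖ ≤ κ * r)
    (hstep : ∀ z ∈ K, ‖p z‖ + A * (κ * r) ≤ r → ∃ g : E → ℝ, (∀ y ∈ Sp, |g y - f y| ≤ 2 * τ) ∧
      ∀ M, (∀ y ∈ Sp, ‖p y - p z‖ ≤ A * (κ * r) → g y ≤ M) →
        ∀ y ∈ Sp, ‖p y - p z‖ ≤ κ * r → g y ≤ M / 2)
    (hlow : ∀ M', (∀ y ∈ Sp, ‖p y‖ ≤ r / 2 → f y ≤ M') → 0 ≤ M' → c * H₁ ≤ M' ^ 2)
    (hup : ∀ y ∈ Sp, ‖p y‖ ≤ r → f y ^ 2 ≤ C * H₂)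
    (hgrow : H₂ ≤ M * H₁) (hτH : 288 * τ ^ 2 ≤ c * H₁)
    (hk : 8 * (C * M) < c * 4 ^ k) (hκk : k * ((A + 1) * κ) ≤ 1 / 2) : False := by
  have hδ : 0 < κ * r := by positivity
  have h0 : ∀ y ∈ Sp, ‖p y‖ ≤ r → f y ≤ √(C * H₂) := fun y hy hyr =>
    Real.le_sqrt_of_sq_le (hup y hy hyr)
  have h1 := decay hpT hδ hA hτ hK hstep h0 (Real.sqrt_nonneg _) k
  have h2 : ∀ y ∈ Sp, ‖p y‖ ≤ r / 2 → f y ≤ √(C * H₂) / 2 ^ k + 6 * τ := by
    intro y hy hyr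
    refine h1 y hy (hyr.trans ?_)
    have h3 : (k:ℝ) * ((A + 1) * (κ * r)) = (k * ((A + 1) * κ)) * r := by ring
    rw [h3]
    nlinarith
  have hS0 : 0 ≤ √(C * H₂) / 2 ^ k + 6 * τ := by positivity
  have h4 := hlow _ h2 hS0
  exact no_decay (S₁ := √(C * H₂) / 2 ^ k + 6 * τ) (S₂ := √(C * H₂)) (τ := τ) hc hC hM hH₁ h4 hS0
    (Real.sq_sqrt (by positivity)).le le_rfl (Real.sqrt_nonneg _) hτ hgrow hτH hk

end END

end Vale.Agent.P214
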